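import Vale.Agent.P214.INT.NearMain
import Vale.Agent.P214.AREA.Conv
import Vale.Agent.P214.DIM.Split
import Vale.Agent.P214.MU.VTheta
import Vale.Agent.P214.SUB.A

/-!
# P214, block INTEG: the density is an integer at points with a blow-up plane

* `near_int_scale` : at a scale where the support lies in a thin slab and the tilt excess is small,
  the smoothed mass ratio is within `ε` of an integer multiple of `cg m`;
* `exists_nat_theta` : if some blow-up of `V` at `x` is a plane (in the sense of `IsBlowupPlane`),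
  then `V.theta x` is a natural number.
-/

open Set Filter Topology MeasureTheory Metric
open scoped RealInnerProductSpace ENNReal NNReal

set_option linter.all false

namespace Vale.Agent.P214.INTEG

open Vale.Agent.P214.FV

variable {E : Type*} [NormedAddCommGroup E] [InnerProductSpace ℝ E] [FiniteDimensional ℝ E]
  [MeasurableSpace E] [BorelSpace E]

variable {m : ℕ} {U : Set E}

/-- Lipschitz bound for the profile -/
lemma abs_prof_sub_le {a b : ℝ} (ha : 0 ≤ a) (hb : 0 ≤ b) :
    |prof a - prof b| ≤ 2 * |a - b| := by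
  unfold prof
  have h1 : |max (1 - a) 0 - max (1 - b) 0| ≤ |a - b| := by
    refine (abs_max_sub_max_le_abs _ _ _).trans (le_of_eq ?_)
    rw [show (1 - a) - (1 - b) = -(a - b) by ring, abs_neg]
  have ha1 : max (1 - a) 0 ≤ 1 := max_le (by linarith) zero_le_one
  have hb1 : max (1 - b) 0 ≤ 1 := max_le (by linarith) zero_le_one
  have ha0 : 0 ≤ max (1 - a) 0 := le_max_right _ _
  have hb0 : 0 ≤ max (1 - b) 0 := le_max_right _ _
  rw [show max (1 - a) 0 ^ 2 - max (1 - b) 0 ^ 2
    = (max (1 - a) 0 + max (1 - b) 0) * (max (1 - a) 0 - max (1 - b) 0) by ring, abs_mul,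
    abs_of_nonneg (by positivity)]
  gcongr
  linarith

lemma slab_subset (T : Submodule ℝ E) (x : E) {s : ℝ} (hs : 0 < s) :
    slabSet T (ball (T.starProjection x) s) (co T x) s ⊆ ball x (2 * s) := by
  rintro y ⟨h1, h2⟩
  rw [mem_ball, dist_eq_norm, ← map_sub] at h1
  rw [← map_sub] at h2
  rw [mem_ball, dist_eq_norm]
  have h3 := norm_sq_star_add_co T (y - x)
  have h4 : ‖T.starProjection (y - x)‖ ^ 2 < s ^ 2 := by
    have := norm_nonneg (T.starProjection (y - x)); nlinarith
  have h5 : ‖co T (y - x)‖ ^ 2 ≤ s ^ 2 := by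
    have := norm_nonneg (co T (y - x)); nlinarith
  nlinarith [norm_nonneg (y - x)]

/-- **One flat scale.** -/
theorem near_int_scale (m : ℕ) {M ε : ℝ} (hM : 0 < M) (hε : 0 < ε) :
    ∃ δ > 0, ∀ (U : Set E) (V : IntegralVarifold m U), V.IsStationary → ∀ (x : E) (R : ℝ),
      closedBall x R ⊆ U → ∀ T : Submodule ℝ E, Module.finrank ℝ T = m → ∀ s : ℝ, 0 < s →
      2 * s < R →
      (∀ᵐ y ∂(V.weight.restrict (closedBall x R)), ‖y - x‖ ≤ 2 * s → ‖co T (y - x)‖ ≤ δ * s) →
      V.weight.real (closedBall x (2 * s)) ≤ M * s ^ m →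
      ∫ y in ball x (2 * s), ‖proj (V.tangent y) - proj T‖ ^ 2 ∂V.weight ≤ δ * s ^ m →
      ∃ q : ℕ, |ratio m (V.weight.restrict (closedBall x R)) x (s / 2) / cg m - q| ≤ ε := by
  have hcg := cg_pos m
  obtain ⟨δ₀, hδ₀, hnear⟩ := INT.near_integer' (E := E) m (M := M * 2 ^ m) (ε := ε / 2)
    (by positivity) (by positivity)
  set δ : ℝ := min (1 / 2) (min δ₀ (cg m * ε / (16 * (M * 2 ^ m)))) with hδ
  have hδ0 : 0 < δ := lt_min (by norm_num) (lt_min hδ₀ (by positivity))
  have hδ1 : δ ≤ 1 / 2 := min_le_left _ _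
  have hδ2 : δ ≤ δ₀ := (min_le_right _ _).trans (min_le_left _ _)
  have hδ3 : δ ≤ cg m * ε / (16 * (M * 2 ^ m)) := (min_le_right _ _).trans (min_le_right _ _)
  refine ⟨δ, hδ0, fun U V hst x R hR T hT s hs hsR hslab hmass hexc => ?_⟩
  have hδs : δ * s < s := by
    have := mul_le_mul_of_nonneg_right hδ1 hs.le
    linarith
  have hfin := V.finite_restrict hR
  have hls := V.locStat hst hR
  set ν₀ : Measure E := V.weight.restrict (closedBall x R) with hν₀
  set P : E → E →L[ℝ] E := fun y => proj (V.tangent y) with hP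
  set c : E := co T x with hc
  set z : E := T.starProjection x with hz
  set G : Set E := ball z s with hG
  set K : Set E := slabSet T G c s with hK
  have hKm : MeasurableSet K := measurableSet_slabSet isOpen_ball _ _
  have hKsub : K ⊆ ball x (2 * s) := slab_subset T x hs
  have hKR : K ⊆ closedBall x R :=
    hKsub.trans (ball_subset_closedBall.trans (closedBall_subset_closedBall hsR.le))
  have hzT : z ∈ T := T.starProjection_apply_mem x
  have hzz : T.starProjection z = z := Submodule.starProjection_eq_self_iff.2 hzT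
  have hνK : ν₀.restrict K = V.weight.restrict K := by
    rw [hν₀, Measure.restrict_restrict hKm, inter_eq_left.2 hKR]
  have hslabK : ∀ᵐ y ∂ν₀, y ∈ K → ‖co T y - c‖ ≤ δ * s := by
    filter_upwards [hslab] with y hy hyK
    have h1 := hKsub hyK
    rw [mem_ball, dist_eq_norm] at h1
    have h2 := hy h1.le
    rwa [map_sub] at h2
  have hC : CylStat m T G (δ * s + ‖c‖) (ν₀.restrict K) P := by
    refine hls.cylStat hT isOpen_ball (c := c) (h := δ * s) (h' := s) (by positivity)
      hδs (hKsub.trans (ball_subset_ball hsR.le)) hslabK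
  set μ : Measure E := ν₀.restrict K with hμ
  have hμfin : IsFiniteMeasure μ := inferInstance
  have hint : ∀ᵐ y ∂μ, T.starProjection y ∈ G → ∃ q : ℕ, 1 ≤ q ∧ ∃ S : Submodule ℝ E,
      P y = S.starProjection ∧ IsApproxTangent m μ y q S := by
    have h1 : ∀ᵐ y ∂μ, y ∈ K := ae_restrict_mem hKm
    have h2 : ∀ᵐ y ∂μ, y ∈ K → ‖co T y - c‖ ≤ δ * s := ae_restrict_of_ae hslabK
    have h3 : ∀ᵐ y ∂μ, y ∈ V.carrier ∧
        IsApproxTangent m V.weight y (V.mult y) (V.tangent y) := by
      rw [hνK]
      refine ae_restrict_of_ae ?_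
      filter_upwards [V.ae_mem_carrier, V.tangent_spec] with y hy1 hy2
      exact ⟨hy1, hy2⟩
    filter_upwards [h1, h2, h3] with y hy1 hy2 hy3 _
    refine ⟨V.mult y, V.mult_pos _ hy3.1, V.tangent y, rfl, ?_⟩
    rw [hνK]
    refine SUB.tangent_local hKm ?_ hy3.2
    have h5 : ‖co T y - c‖ < s := (hy2 hy1).trans_lt hδs
    have hopen : IsOpen {w : E | T.starProjection w ∈ G ∧ ‖co T w - c‖ < s} :=
      (isOpen_ball.preimage T.starProjection.continuous).inter
        (isOpen_lt (((co T).continuous.sub continuous_const).norm) continuous_const)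
    refine mem_of_superset (hopen.mem_nhds ⟨hy1.1, h5⟩) fun w hw => ⟨hw.1, hw.2.le⟩
  obtain ⟨S, θ, -, -, -, hI⟩ := AREA.intCyl_of_cylStat hC hint (A := univ) (by simp)
  have hμG : μ.restrict (T.starProjection ⁻¹' G) = μ := by
    rw [hμ, Measure.restrict_restrict (isOpen_ball.preimage T.starProjection.continuous).measurableSet,
      inter_eq_right.2]
    exact fun y hy => hy.1
  rw [hμG] at hI
  have hss : 2 * (s / 2) = s := by ring
  have hcyl : INT.cyl T z (2 * (s / 2)) = T.starProjection ⁻¹' G := by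
    unfold INT.cyl; rw [hss, hzz]
  have hμle : μ ≤ V.weight.restrict (ball x (2 * s)) := by
    rw [hνK]; exact Measure.restrict_mono hKsub le_rfl
  have hfin2 : V.weight (closedBall x (2 * s)) < ⊤ :=
    V.locFinite _ ((closedBall_subset_closedBall hsR.le).trans hR) (isCompact_closedBall x _)
  have hmassμ : μ.real univ ≤ M * s ^ m := by
    refine le_trans ?_ hmass
    rw [measureReal_def, measureReal_def]
    refine ENNReal.toReal_mono hfin2.ne ?_
    refine (hμle univ).trans ?_
    rw [Measure.restrict_apply_univ]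
    exact measure_mono ball_subset_closedBall
  have hpow : s ^ m = 2 ^ m * (s / 2) ^ m := by
    rw [← mul_pow]; congr 1; ring
  obtain ⟨q, hq⟩ := hnear T G _ μ P S θ _ z (s / 2) hI hzT (by positivity)
    (by rw [hcyl]) (by
      rw [mul_assoc, ← hpow]
      exact (measureReal_mono (subset_univ _)).trans hmassμ) (by
      unfold INT.exc
      rw [hcyl, hss]
      have hsm : 0 < s ^ m := by positivity
      rw [div_le_iff₀ hsm]
      have h1 : ∫ y in T.starProjection ⁻¹' G, INT.tilt P T y ^ 2 ∂μ
          ≤ ∫ y in ball x (2 * s), ‖proj (V.tangent y) - proj T‖ ^ 2 ∂V.weight := by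
        rw [hμG]
        refine integral_mono_measure hμle (Eventually.of_forall fun y => ?_) ?_
        · simp only [Pi.zero_apply]; positivity
        · have h2 := hls.integrableOn_tiltsq (proj T) (ball x (2 * s))
          unfold IntegrableOn at h2
          rw [hν₀, Measure.restrict_restrict measurableSet_ball, inter_eq_left.2
            (ball_subset_closedBall.trans (closedBall_subset_closedBall hsR.le))] at h2
          exact h2
      calc _ ≤ _ := h1
        _ ≤ δ * s ^ m := hexc
        _ ≤ δ₀ * s ^ m := by gcongr)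
  refine ⟨q, ?_⟩
  -- comparison of the two smoothed mass ratios
  have hs2 : 0 < s / 2 := by positivity
  have e1 : ∫ y, cut x (s / 2) y ∂ν₀ = ∫ y, cut x (s / 2) y ∂μ := by
    symm
    refine setIntegral_eq_integral_of_forall_compl_eq_zero fun y hy => cut_eq_zero hs2 ?_
    by_contra hcon
    rw [not_le] at hcon
    refine hy ⟨?_, ?_⟩
    · show T.starProjection y ∈ ball z s
      rw [mem_ball, dist_eq_norm, hz, ← map_sub]
      exact (norm_star_le T _).trans_lt (by linarith)
    · rw [hc, ← map_sub]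
      exact (norm_co_le T _).trans (by linarith)
  have hcutT : Continuous fun y : E => cut z (s / 2) (T.starProjection y) :=
    (continuous_cut z (s / 2)).comp T.starProjection.continuous
  have hi1 : Integrable (fun y => cut z (s / 2) (T.starProjection y)) μ := by
    refine (integrable_const (1:ℝ)).mono' hcutT.aestronglyMeasurable
      (Eventually.of_forall fun y => ?_)
    rw [Real.norm_of_nonneg (cut_nonneg _ _ _)]
    exact cut_le_one _ _ _
  have hi2 : Integrable (fun y => cut x (s / 2) y) μ := by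
    refine (integrable_const (1:ℝ)).mono' (continuous_cut _ _).aestronglyMeasurable
      (Eventually.of_forall fun y => ?_)
    rw [Real.norm_of_nonneg (cut_nonneg _ _ _)]
    exact cut_le_one _ _ _
  have hdiff : |∫ y, cut z (s / 2) (T.starProjection y) ∂μ - ∫ y, cut x (s / 2) y ∂μ|
      ≤ 8 * δ ^ 2 * (M * s ^ m) := by
    rw [← integral_sub hi1 hi2]
    have h1 : ∀ᵐ y ∂μ, ‖cut z (s / 2) (T.starProjection y) - cut x (s / 2) y‖ ≤ 8 * δ ^ 2 := by
      filter_upwards [ae_restrict_mem hKm, ae_restrict_of_ae hslabK] with y hy1 hy2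
      have h2 := hy2 hy1
      rw [hc, ← map_sub] at h2
      have h3 := norm_sq_star_add_co T (y - x)
      unfold cut
      rw [Real.norm_eq_abs]
      refine (abs_prof_sub_le (by positivity) (by positivity)).trans ?_
      rw [hz, ← map_sub, ← sub_div]
      have h4 : ‖T.starProjection (y - x)‖ ^ 2 - ‖y - x‖ ^ 2 = -‖co T (y - x)‖ ^ 2 := by linarith
      rw [h4, abs_div, abs_neg, abs_of_nonneg (by positivity : 0 ≤ ‖co T (y - x)‖ ^ 2),
        abs_of_pos (by positivity : 0 < (s / 2) ^ 2)]
      have h5 : ‖co T (y - x)‖ ^ 2 / (s / 2) ^ 2 ≤ 4 * δ ^ 2 := by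
        rw [div_le_iff₀ (by positivity)]
        have h6 := pow_le_pow_left₀ (norm_nonneg _) h2 2
        have h7 : 4 * δ ^ 2 * (s / 2) ^ 2 = (δ * s) ^ 2 := by ring
        rw [h7]
        exact h6
      linarith
    have h7 := norm_integral_le_of_norm_le_const h1
    rw [Real.norm_eq_abs] at h7
    refine h7.trans ?_
    gcongr
  have hhtot : INT.htot m T μ z (s / 2) = (∫ y, cut z (s / 2) (T.starProjection y) ∂μ) / (s / 2) ^ m := by
    unfold INT.htot; rw [hzz]
  have hratio : ratio m ν₀ x (s / 2) = (∫ y, cut x (s / 2) y ∂μ) / (s / 2) ^ m := by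
    unfold ratio; rw [e1]
  have hsm2 : 0 < (s / 2) ^ m := by positivity
  have hd2 : |ratio m ν₀ x (s / 2) / cg m - INT.htot m T μ z (s / 2) / cg m| ≤ ε / 2 := by
    rw [hhtot, hratio, ← sub_div, ← sub_div, abs_div, abs_div, abs_of_pos hcg, abs_of_pos hsm2,
      abs_sub_comm, div_div, div_le_iff₀ (by positivity)]
    refine hdiff.trans ?_
    rw [hpow]
    have h8 : δ ^ 2 ≤ cg m * ε / (16 * (M * 2 ^ m)) := by
      have : δ ^ 2 ≤ δ := by
        rw [sq]
        exact mul_le_of_le_one_left hδ0.le (hδ1.trans (by norm_num))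
      exact this.trans hδ3
    calc 8 * δ ^ 2 * (M * (2 ^ m * (s / 2) ^ m))
        ≤ 8 * (cg m * ε / (16 * (M * 2 ^ m))) * (M * (2 ^ m * (s / 2) ^ m)) := by gcongr
      _ = ε / 2 * ((s / 2) ^ m * cg m) := by field_simp; ring
  calc |ratio m ν₀ x (s / 2) / cg m - q|
      = |(ratio m ν₀ x (s / 2) / cg m - INT.htot m T μ z (s / 2) / cg m)
          + (INT.htot m T μ z (s / 2) / cg m - q)| := by congr 1; ring
    _ ≤ _ := abs_add_le _ _
    _ ≤ ε / 2 + ε / 2 := add_le_add hd2 hq
    _ = ε := by ring

end Vale.Agent.P214.INTEG
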