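import Vale.Agent.P214.INTEG.Main
import Vale.Agent.P214.HS.MeanValue

/-!
# P214, block INTEG, part 2: `theta` is an integer at points with a blow-up plane
-/

open Set Filter Topology MeasureTheory Metric
open scoped RealInnerProductSpace ENNReal NNReal

set_option linter.all false

namespace Vale.Agent.P214.INTEG

open Vale.Agent.P214.FV

variable {E : Type*} [NormedAddCommGroup E] [InnerProductSpace ℝ E] [FiniteDimensional ℝ E]
  [MeasurableSpace E] [BorelSpace E]

variable {m : ℕ} {U : Set E}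

/-- near integrality of the density, every precision -/
theorem near_nat_theta (hU : IsOpen U) {V : IntegralVarifold m U} (hst : V.IsStationary) {x : E}
    (hx : x ∈ U) {T : Submodule ℝ E} (hT : V.IsBlowupPlane x T) {ε : ℝ} (hε : 0 < ε) :
    ∃ q : ℕ, |V.theta x - q| ≤ 2 * ε := by
  obtain ⟨hTm, hfreq⟩ := hT
  have hcg := cg_pos m
  obtain ⟨R, hR0, hR⟩ : ∃ R > 0, closedBall x R ⊆ U :=
    nhds_basis_closedBall.mem_iff.1 (hU.mem_nhds hx)
  have hfin := V.finite_restrict hR
  have hls := V.locStat hst hR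
  have hdl := V.densLow (x := x) (R := R)
  set ν₀ : Measure E := V.weight.restrict (closedBall x R) with hν₀
  set P : E → E →L[ℝ] E := fun y => proj (V.tangent y) with hP
  have hθ0 : 0 ≤ V.theta x := V.theta_nonneg hU hst hx
  have hlim := hls.tendsto_ratio (mem_ball_self hR0)
  rw [V.theta_restrict (mem_ball_self hR0)] at hlim
  -- constants
  set M : ℝ := 4 * 4 ^ m * (cg m * V.theta x + 1) with hM
  have hM0 : 0 < M := by positivity
  obtain ⟨δ, hδ0, hscale⟩ := near_int_scale (E := E) m hM0 hε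
  set η : ℝ := cg m * δ ^ 2 / (128 * 4 ^ m) with hη
  have hη0 : 0 < η := by positivity
  set ε₁ : ℝ := min (η / 4) (δ / 8 ^ m) with hε₁
  have hε₁0 : 0 < ε₁ := lt_min (by positivity) (by positivity)
  set ε₂ : ℝ := min (η / (8 * 4 ^ (m + 2))) (min 1 (cg m * ε)) with hε₂
  have hε₂0 : 0 < ε₂ := lt_min (by positivity) (lt_min one_pos (by positivity))
  have hε₂a : ε₂ ≤ η / (8 * 4 ^ (m + 2)) := min_le_left _ _
  have hε₂b : ε₂ ≤ 1 := (min_le_right _ _).trans (min_le_left _ _)
  have hε₂c : ε₂ ≤ cg m * ε := (min_le_right _ _).trans (min_le_right _ _)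
  obtain ⟨ρ₀, hρ₀, hsub⟩ := mem_nhdsGT_iff_exists_Ioo_subset.1
    ((hlim.eventually (lt_mem_nhds (show cg m * V.theta x - ε₂ < cg m * V.theta x by linarith))).and
      (hlim.eventually (gt_mem_nhds (show cg m * V.theta x < cg m * V.theta x + ε₂ by linarith))))
  have hρ₀' : (0:ℝ) < ρ₀ := hρ₀
  -- a good scale
  obtain ⟨r, hr1, hr2⟩ := ((hfreq ε₁ hε₁0).and_eventually
    (Ioo_mem_nhdsGT (show (0:ℝ) < min (ρ₀ / 4) (R / 8) by positivity))).exists
  have hr0 : 0 < r := hr2.1
  have hrρ : r < ρ₀ / 4 := hr2.2.trans_le (min_le_left _ _)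
  have hrR : r < R / 8 := hr2.2.trans_le (min_le_right _ _)
  have hrat : ∀ t, 0 < t → t ≤ 4 * r → cg m * V.theta x - ε₂ < ratio m ν₀ x t ∧
      ratio m ν₀ x t < cg m * V.theta x + ε₂ := fun t ht1 ht2 => hsub ⟨ht1, by linarith⟩
  set s : ℝ := r / 8 with hs
  have hs0 : 0 < s := by positivity
  have hrs : r = 8 * s := by rw [hs]; ring
  -- height
  have hrm : 0 < r ^ m := by positivity
  have hH : HS.height m ν₀ T x r ≤ η := by
    have h1 := DIM.height_le_tilt (x := x) hls hr0
      ((closedBall_subset_ball (by linarith)) : closedBall x (4 * r) ⊆ ball x R) T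
    have h2 := (hrat (4 * r) (by positivity) le_rfl).2
    have h3 := (hrat (2 * r) (by positivity) (by linarith)).1
    have h4 : ∫ z in ball x r, ‖P z - T.starProjection‖ ^ 2 ∂ν₀
        = ∫ y in ball x r, ‖proj (V.tangent y) - proj T‖ ^ 2 ∂V.weight := by
      rw [hν₀, Measure.restrict_restrict measurableSet_ball, inter_eq_left.2
        (ball_subset_closedBall.trans (closedBall_subset_closedBall (by linarith)))]
      rfl
    have h5 : 2 * (∫ z in ball x r, ‖P z - T.starProjection‖ ^ 2 ∂ν₀) / r ^ m ≤ η / 2 := by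
      rw [h4, div_le_iff₀ hrm]
      have h6 : ε₁ * r ^ m ≤ η / 4 * r ^ m := by
        gcongr
        exact min_le_left _ _
      linarith
    have h7 : 2 * 4 ^ (m + 2) * (ratio m ν₀ x (4 * r) - ratio m ν₀ x (2 * r)) ≤ η / 2 := by
      have h8 : ratio m ν₀ x (4 * r) - ratio m ν₀ x (2 * r) ≤ 2 * ε₂ := by linarith
      have h9 : ratio m ν₀ x (4 * r) - ratio m ν₀ x (2 * r) ≤ 2 * (η / (8 * 4 ^ (m + 2))) := by
        linarith
      calc _ ≤ 2 * 4 ^ (m + 2) * (2 * (η / (8 * 4 ^ (m + 2)))) := by gcongr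
        _ = η / 2 := by field_simp; ring
    linarith
  -- the slab
  have hslab : ∀ᵐ y ∂ν₀, ‖y - x‖ ≤ 2 * s → ‖co T (y - x)‖ ≤ δ * s := by
    have hspt : ∀ᵐ y ∂ν₀, y ∈ V.spt := ae_restrict_of_ae V.ae_mem_spt
    filter_upwards [hspt] with y hy hyx
    have hyR : y ∈ ball x R := by rw [mem_ball, dist_eq_norm]; linarith
    have h1 := HS.hsq_le_height (T := T) hls hdl hr0
      ((closedBall_subset_ball (by linarith)) : closedBall x r ⊆ ball x R)
      (V.mem_support hy hyR) (by linarith : ‖y - x‖ ≤ r / 4)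
    have h2 : HS.hsq T x y = ‖co T (y - x)‖ ^ 2 := by
      unfold HS.hsq; rw [co_eq]
    rw [h2] at h1
    have h3 : 2 * 4 ^ m * r ^ 2 * HS.height m ν₀ T x r ≤ 2 * 4 ^ m * r ^ 2 * η := by gcongr
    have h4 : 2 * 4 ^ m * r ^ 2 * η = cg m * (δ * s) ^ 2 := by
      rw [hη, hrs]; field_simp; ring
    have h5 : ‖co T (y - x)‖ ^ 2 ≤ (δ * s) ^ 2 := by
      refine le_of_mul_le_mul_left ?_ hcg
      linarith
    exact (pow_le_pow_iff_left₀ (norm_nonneg _) (by positivity) two_ne_zero).1 h5
  -- mass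
  have hmass : V.weight.real (closedBall x (2 * s)) ≤ M * s ^ m := by
    have h1 := measureReal_ball_le (ν := ν₀) (x := x) (r := 2 * s) (by positivity)
    rw [hν₀, V.real_restrict (closedBall_subset_closedBall (by linarith))] at h1
    have e : 2 * (2 * s) = 4 * s := by ring
    rw [e] at h1
    have h2 := (hrat (4 * s) (by positivity) (by linarith)).2
    have h3 : 0 < (4 * s) ^ m := by positivity
    unfold ratio at h2
    rw [div_lt_iff₀ h3] at h2
    have h4 : (cg m * V.theta x + ε₂) * (4 * s) ^ m ≤ (cg m * V.theta x + 1) * (4 * s) ^ m := by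
      gcongr
    calc _ ≤ _ := h1
      _ ≤ 4 * ((cg m * V.theta x + 1) * (4 * s) ^ m) := by linarith
      _ = M * s ^ m := by rw [hM, mul_pow]; ring
  -- excess
  have hexc : ∫ y in ball x (2 * s), ‖proj (V.tangent y) - proj T‖ ^ 2 ∂V.weight ≤ δ * s ^ m := by
    have h2 := hls.integrableOn_tiltsq (proj T) (ball x r)
    unfold IntegrableOn at h2
    rw [hν₀, Measure.restrict_restrict measurableSet_ball, inter_eq_left.2
      (ball_subset_closedBall.trans (closedBall_subset_closedBall (by linarith)))] at h2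
    calc _ ≤ ∫ y in ball x r, ‖proj (V.tangent y) - proj T‖ ^ 2 ∂V.weight :=
          setIntegral_mono_set h2 (Eventually.of_forall fun z => by
            simp only [Pi.zero_apply]; positivity)
            (Eventually.of_forall (ball_subset_ball (by linarith)))
      _ ≤ ε₁ * r ^ m := hr1
      _ ≤ (δ / 8 ^ m) * r ^ m := by
          gcongr
          exact min_le_right _ _
      _ = δ * s ^ m := by rw [hrs, mul_pow]; field_simp
  obtain ⟨q, hq⟩ := hscale U V hst x R hR T hTm s hs0 (by linarith) hslab hmass hexc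
  refine ⟨q, ?_⟩
  have h1 := hrat (s / 2) (by positivity) (by linarith)
  have h2 : |V.theta x - ratio m ν₀ x (s / 2) / cg m| ≤ ε := by
    have e : V.theta x - ratio m ν₀ x (s / 2) / cg m
        = (cg m * V.theta x - ratio m ν₀ x (s / 2)) / cg m := by field_simp
    rw [e, abs_div, abs_of_pos hcg, div_le_iff₀ hcg, abs_le]
    constructor <;> linarith [h1.1, h1.2]
  calc |V.theta x - q| = |(V.theta x - ratio m ν₀ x (s / 2) / cg m)
        + (ratio m ν₀ x (s / 2) / cg m - q)| := by congr 1; ring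
    _ ≤ _ := abs_add_le _ _
    _ ≤ ε + ε := add_le_add h2 hq
    _ = 2 * ε := by ring

/-- **The density is an integer at points with a blow-up plane.** -/
theorem exists_nat_theta (hU : IsOpen U) {V : IntegralVarifold m U} (hst : V.IsStationary) {x : E}
    (hx : x ∈ U) (hT : ∃ T, V.IsBlowupPlane x T) : ∃ Q : ℕ, V.theta x = Q := by
  obtain ⟨T, hT⟩ := hT
  have h1 : V.theta x ∈ closure (range ((↑) : ℕ → ℝ)) := by
    rw [Metric.mem_closure_iff]
    intro ε hε
    obtain ⟨q, hq⟩ := near_nat_theta hU hst hx hT (ε := ε / 4) (by positivity)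
    refine ⟨q, mem_range_self q, ?_⟩
    rw [Real.dist_eq]
    linarith
  rw [Nat.isClosedEmbedding_coe_real.isClosed_range.closure_eq] at h1
  obtain ⟨Q, hQ⟩ := h1
  exact ⟨Q, hQ.symm⟩

/-- the hypothesis `hint` of `DIM.dimH_sing_le` -/
theorem hint (hU : IsOpen U) {V : IntegralVarifold m U} (hst : V.IsStationary) :
    ∀ x ∈ V.sing, (∃ T, V.IsBlowupPlane x T) → ∃ Q : ℕ, V.theta x = Q :=
  fun x hx h => exists_nat_theta hU hst hx.1.1 h

/-- at support points the integer is at least one -/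
theorem exists_nat_theta_pos (hU : IsOpen U) {V : IntegralVarifold m U} (hst : V.IsStationary)
    {x : E} (hx : x ∈ V.spt) (hT : ∃ T, V.IsBlowupPlane x T) :
    ∃ Q : ℕ, 1 ≤ Q ∧ V.theta x = Q := by
  obtain ⟨Q, hQ⟩ := exists_nat_theta hU hst hx.1 hT
  refine ⟨Q, ?_, hQ⟩
  have h1 := V.one_le_theta hU hst hx
  rw [hQ] at h1
  exact_mod_cast h1

end Vale.Agent.P214.INTEG
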